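import Vale.Agent.P088.Q.Model
import Vale.Agent.P088.H4.Spec

/-!
# P088: the classes of `H4/Spec` as classes of the chain
-/

open MeasureTheory Set Filter Topology
open scoped ContDiff

noncomputable section

namespace Vale.Agent.P088.EYM.Q

variable {n N : ℕ} [NeZero n]

theorem IsMod.toH {j0 : Fin N} {W : Model n N} {D : Set (E n)} (h : IsMod j0 W D) :
    H.IsMod j0 W D := ⟨h.ok, h.frame, h.sol, h.re⟩

/-- A class with rigidity from the boundary jets is a class of the chain, by the boundary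
determination. -/
def ofH (hA : H.DAll_statement) (Q : H.Cls n N) : Cls n N where
  eq := Q.eq
  mono := Q.mono
  pull := fun {L L' D D' X Y S} hD hD' hL hL' h he =>
    Q.push hD' hD hL' hL (bSymm n N L L' D D' X Y S hD hD' h) he
  rigInt := fun j0 W₁ W₂ D hn hD hpos hc h₁ e₁ h₂ e₂ U hU hUD hne he =>
    Q.rigInt j0 W₁ W₂ D hn hD hpos hc h₁.toH h₂.toH e₁ e₂ U hU hUD hne he
  rigBd := fun j0 W₁ W₂ z r C hn hr hz h₁ e₁ h₂ e₂ a b c d e =>
    Q.rigBd j0 W₁ W₂ z r hn hr hz h₁.toH h₂.toH e₁ e₂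
      (hA n N j0 W₁ W₂ z r C hn hr hz h₁.toH h₂.toH a b c d e)

end Vale.Agent.P088.EYM.Q

end
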