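import Vale.Agent.P088.H820.G4

/-!
# P088: abstract classes of local equations with unique continuation
-/

open MeasureTheory Set Filter Topology
open scoped ContDiff

noncomputable section

namespace Vale.Agent.P088.EYM.Q

variable {n N : ℕ} [NeZero n]

/-- `W` is a model on `D`, without equations: the constant sections and the `c_a` are solutions
and the real part of the component `j0` of `c_a` is the coordinate `x_a`. -/
structure IsMod (j0 : Fin N) (W : Model n N) (D : Set (E n)) : Prop where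
  ok : W.toLD.Ok D
  frame : ∀ v : Fib N, Sol W.toLD D (fun _ => v)
  sol : ∀ a, Sol W.toLD D (W.c a)
  re : ∀ a, ∀ x ∈ D, (W.c a x j0).re = x a

/-- A class of local equations for `(g, B, h)`: invariant under changes of coordinates and frames,
with unique continuation for models, from an open set (`rigInt`) and from a piece of the flat
boundary with equal boundary data (`rigBd`). -/
structure Cls (n N : ℕ) [NeZero n] where
  eq : LD n N → Set (E n) → Prop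
  mono : ∀ {L : LD n N} {D D' : Set (E n)}, eq L D → D' ⊆ D → eq L D'
  pull : ∀ {L L' : LD n N} {D D' : Set (E n)} {X Y : E n → E n} {S : E n → EndF N},
    RelOpen D → RelOpen D' → L.Ok D → L'.Ok D' → IsPull L L' D D' X Y S → eq L' D' → eq L D
  rigInt : ∀ (j0 : Fin N) (W₁ W₂ : Model n N) (D : Set (E n)),
    3 ≤ n → IsOpen D → D ⊆ {x | 0 < x 0} → IsPreconnected D →
    IsMod j0 W₁ D → eq W₁.toLD D → IsMod j0 W₂ D → eq W₂.toLD D →
    ∀ U : Set (E n), IsOpen U → U ⊆ D → U.Nonempty → EqOnM W₁ W₂ U → EqOnM W₁ W₂ D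
  rigBd : ∀ (j0 : Fin N) (W₁ W₂ : Model n N) (z : E n) (r C : ℝ),
    3 ≤ n → 0 < r → z 0 = 0 →
    IsMod j0 W₁ (HB z r) → eq W₁.toLD (HB z r) → IsMod j0 W₂ (HB z r) → eq W₂.toLD (HB z r) →
    (∀ x ∈ HB z r, x 0 = 0 → W₁.h x = 1 ∧ W₂.h x = 1) →
    (∀ x ∈ HB z r, x 0 = 0 → ∀ a, W₁.c a x = W₂.c a x) →
    (∀ x ∈ HB z r, x 0 = 0 → ∀ v : Fib N,
      flux W₁.toLD 0 (fun _ => v) x = flux W₂.toLD 0 (fun _ => v) x) →
    (∀ x ∈ HB z r, x 0 = 0 → ∀ a, flux W₁.toLD 0 (W₁.c a) x = flux W₂.toLD 0 (W₂.c a) x) →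
    ERel W₁.toLD W₂.toLD z r C →
    EqOnM W₁ W₂ (HB z r)

/-- `W` is a model on `D` which satisfies the equations of the class. -/
structure IsModel (K : Cls n N) (j0 : Fin N) (W : Model n N) (D : Set (E n)) : Prop where
  ok : W.toLD.Ok D
  frame : ∀ v : Fib N, Sol W.toLD D (fun _ => v)
  sol : ∀ a, Sol W.toLD D (W.c a)
  re : ∀ a, ∀ x ∈ D, (W.c a x j0).re = x a
  eqs : K.eq W.toLD D

theorem IsModel.mod {K : Cls n N} {j0 : Fin N} {W : Model n N} {D : Set (E n)}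
    (h : IsModel K j0 W D) : IsMod j0 W D := ⟨h.ok, h.frame, h.sol, h.re⟩

def BPush_statement : Prop :=
  ∀ (n N : ℕ) [NeZero n] (L : LD n N) (D D' : Set (E n)) (X Y : E n → E n)
    (S : E n → EndF N), RelOpen D → RelOpen D' → L.Ok D → IsDiffeo D D' X Y →
    ContDiffOn ℝ ∞ S D → (∀ x ∈ D, IsUnit (S x)) →
    ∃ L' : LD n N, L'.Ok D' ∧ IsPull L L' D D' X Y S ∧
      ∀ K : Cls n N, K.eq L D → K.eq L' D'

/-- Existence of a model near `z` in solution coordinates. -/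
def BModel_statement : Prop :=
  ∀ (n N : ℕ) [NeZero n] (L : LD n N) (D : Set (E n)) (K : Cls n N) (j0 : Fin N), RelOpen D →
    L.Ok D → K.eq L D → ∀ (S : E n → EndF N) (T : Fin n → E n → Fib N),
    ContDiffOn ℝ ∞ S D → (∀ v, Sol L D (fun x => S x v)) → (∀ a, Sol L D (T a)) →
    ∀ z ∈ D, IsUnit (S z) → (Jac (Xco j0 S T) z).det ≠ 0 →
    ((0 < z 0 ∧ 0 < Xco j0 S T z 0) ∨
      (z 0 = 0 ∧ 0 < pd 0 (fun x => Xco j0 S T x 0) z ∧
        ∃ r > 0, ∀ x ∈ HB z r, x 0 = 0 → Xco j0 S T x 0 = 0)) →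
    ∃ (Y : E n → E n) (W : Model n N) (r₀ : ℝ), 0 < r₀ ∧ ∀ r, 0 < r → r ≤ r₀ →
      ∃ D₁ ⊆ D, RelOpen D₁ ∧ z ∈ D₁ ∧
        IsPull L W.toLD D₁ (HB (Xco j0 S T z) r) (Xco j0 S T) Y S ∧
        IsModel K j0 W (HB (Xco j0 S T z) r) ∧
        ∀ x ∈ D₁, ∀ a, T a x = S x (W.c a (Xco j0 S T x))

/-- Rigidity of models, interior. -/
def BRigInt_statement : Prop :=
  ∀ (n N : ℕ) [NeZero n] (K : Cls n N) (j0 : Fin N) (W₁ W₂ : Model n N) (D : Set (E n)),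
    3 ≤ n → IsOpen D → D ⊆ {x | 0 < x 0} → IsPreconnected D →
    IsModel K j0 W₁ D → IsModel K j0 W₂ D → ∀ U : Set (E n), IsOpen U → U ⊆ D →
    U.Nonempty → EqOnM W₁ W₂ U → EqOnM W₁ W₂ D

theorem bRigInt : BRigInt_statement := fun _ _ _ K j0 W₁ W₂ D hn hD hpos hc h₁ h₂ U hU hUD hne he =>
  K.rigInt j0 W₁ W₂ D hn hD hpos hc h₁.mod h₁.eqs h₂.mod h₂.eqs U hU hUD hne he

/-- Rigidity of models, from the boundary. -/
def BNear_statement : Prop :=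
  ∀ (n N : ℕ) [NeZero n] (K : Cls n N) (j0 : Fin N) (W₁ W₂ : Model n N) (z : E n) (r C : ℝ),
    3 ≤ n → 0 < r → z 0 = 0 → IsModel K j0 W₁ (HB z r) → IsModel K j0 W₂ (HB z r) →
    (∀ x ∈ HB z r, x 0 = 0 → W₁.h x = 1 ∧ W₂.h x = 1) →
    (∀ x ∈ HB z r, x 0 = 0 → ∀ a, W₁.c a x = W₂.c a x) →
    (∀ x ∈ HB z r, x 0 = 0 → ∀ v : Fib N,
      flux W₁.toLD 0 (fun _ => v) x = flux W₂.toLD 0 (fun _ => v) x) →
    (∀ x ∈ HB z r, x 0 = 0 → ∀ a, flux W₁.toLD 0 (W₁.c a) x = flux W₂.toLD 0 (W₂.c a) x) →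
    ERel W₁.toLD W₂.toLD z r C →
    EqOnM W₁ W₂ (HB z r)

theorem bNear : BNear_statement := fun _ _ _ K j0 W₁ W₂ z r C hn hr hz h₁ h₂ a b c d e =>
  K.rigBd j0 W₁ W₂ z r C hn hr hz h₁.mod h₁.eqs h₂.mod h₂.eqs a b c d e

theorem bPush : BPush_statement := by
  intro n N _ L D D' X Y S hD hD' hL hXY hS hu
  obtain ⟨L', hL', hP⟩ := push_exists hD hD' hL hXY hS hu
  exact ⟨L', hL', hP, fun K he =>
    K.pull hD' hD hL' hL (bSymm n N L L' D D' X Y S hD hD' hP) he⟩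

end Vale.Agent.P088.EYM.Q
end
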